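import Vale.Agent.Lib.P037.H19.BlowFinal

namespace Vale.Agent.Results.P037.BlockPatterns

open Vale.Agent.Lib.P037

/-- Polynomial removal lemma for every ordered block pattern of a `2 × 2` binary pattern `H`:
the `k × k` pattern whose first `t` rows repeat the first row of `H`, whose last `k - t` rows
repeat the second row, whose first `s` columns repeat the first column and whose last `k - s`
columns repeat the second column. If every binary `n × n` matrix free of this pattern differs
from `A` in at least `ε n ^ 2` entries, then `A` contains at least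
`((ε / 128) ^ (24 k ^ 4) / (4 k ^ 2 (k!) ^ 2)) ^ (2 k) * n ^ (2 k)` ordered copies of it. -/
theorem result (H : Fin 2 → Fin 2 → Bool) (k t s : ℕ) (ht0 : 0 < t) (htk : t < k)
    (hs0 : 0 < s) (hsk : s < k) (n : ℕ) (ε : ℝ) (A : Fin n → Fin n → Bool)
    (hε : 0 < ε) (hε1 : ε < 1)
    (hfar : ∀ B : Fin n → Fin n → Bool, numCopies (blockPattern H k t s) B = 0 →
      ε * (n : ℝ) ^ 2 ≤ (numDiff A B : ℝ)) :
    ((ε / 128) ^ (24 * k ^ 4) / (4 * (k : ℝ) ^ 2 * ((k.factorial : ℕ) : ℝ) ^ 2)) ^ (2 * k)
        * (n : ℝ) ^ (2 * k)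
      ≤ (numCopies (blockPattern H k t s) A : ℝ) :=
  H19.block_removal H k t s ht0 htk hs0 hsk n ε A hε hε1 hfar

end Vale.Agent.Results.P037.BlockPatterns
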