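import Vale.Agent.Lib.P037.EPat.Sym

namespace Vale.Agent.Results.P037.OneOddEntry

open Vale.Agent.Lib.P037

/-- Polynomial removal lemma for every ordered `2 × 2` binary pattern `H` with an odd number of
ones (the eight patterns in which one entry differs from the other three, such as the pattern
with rows `1 1` and `1 0`): if every binary `n × n` matrix free of `H` differs from `A` in at
least `ε n ^ 2` entries, then `A` contains at least `(ε / 46) ^ 20 * n ^ 4` ordered copies
of `H`. -/
theorem result (H : Fin 2 → Fin 2 → Bool)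
    (hH : Odd (Finset.univ.filter (fun p : Fin 2 × Fin 2 => H p.1 p.2 = true)).card)
    (n : ℕ) (ε : ℝ) (A : Fin n → Fin n → Bool)
    (hε : 0 < ε) (hε1 : ε < 1)
    (hfar : ∀ B : Fin n → Fin n → Bool, numCopies H B = 0 →
      ε * (n : ℝ) ^ 2 ≤ (numDiff A B : ℝ)) :
    (ε / 46) ^ 20 * (n : ℝ) ^ 4 ≤ (numCopies H A : ℝ) :=
  removal_odd H hH n ε A hε hε1 hfar

end Vale.Agent.Results.P037.OneOddEntry
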